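/-! # Row 59 (S0081): e-positivity of chromatic quasisymmetric functions in `ℕ[q]` — blueprint

Owner: helper13.  Files `Crest/Agent/R59/*`; every lemma carries its recipe as a docstring.

## T. Completed quantum torus (Defs, T1, T1b, T2, T3, T4, G1a, G1, G2a, G2)
`K = ℚ((t))`, `q = t²`, lattice `M`, alternating form `ω`, cone `A`; `QT ω A` = functions supported
in the cone with `x^u x^v = t^(ω u v) x^(u+v)`.  For `g` with constant term 1 and a covector `θ`:
unique `g = g_- g_≥` (`gneg`, `gnn`), `g_0` = the `θ = 0` part of `g_≥` (`gzero`).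
`lam a d = [x^d] log a` (through `a⁻¹ D a`; additive on elements supported in `ω(·,d) = 0` since
`[x^d]` is a trace there).  `attr g d = lam (g_0^{θ_d}) d`, `θ_d = ω(·,d)`.  `attr g d = g_d +` lower
terms, so `g` is determined by its attractor data (`IsCl`).  Generators `G_s(x^u)`:
`∏_j (1 + t^(s+2j) x^u)` for odd `s`, `∏_j (1 - t^(s+2j) x^u)⁻¹` for even `s`; `Ψ = G_1`.
`Ad G_s(x^u)` is positive on `x^v` with `ω u v ≤ 0`, `Ad G_s⁻¹` on `ω u v ≥ 0`.

## R. Theorem R (CDefs, C*, ZDefs, Z*, Adm, RUp*, Push)
If `γ = ∏ G_(s_i)(x^(u_i))` with `ω u_i u_j ≤ 0` for `i < j` and `ω` vanishes on `ker θ`, then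
`γ_0^θ` is, in each bounded degree, a finite product of generators.  Upstairs (`ℤ^I`,
`b i j = [ω u_i u_j]_+`) the coefficients of `γ` are Hilbert series of sign-twisted invariant
polynomials (families `HH`), multiplied by the shuffle product with kernel `KK`.
* HN (C4, C5): ideals `IT`, `IF`; products of bases of `H/IT` and `H/IF` form a basis of `H`
  (spanning: ring theory + averaging; independence: `KK_mem_NH`, non-zero-divisor, contraction).
  So `γ = A_T A_F` and `γ_0` = slope zero part of `A_F`.
* PBW (C6–C12): on slope zero, filter `R(X)/IF(X)` by `FF k` (order of vanishing under block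
  translations over all slope-zero partitions, shifted by `b(π) - |π|`).  The product is filtered
  (`FF_mul`), supercommutative on the graded (`FF_comm`), restriction lands in the tensor filtration
  (`FF_le_GG`).  `V = FF/DD`; ordered monomials in lifts of bases of the invariants of `V` form a
  basis (spanning: averaging + sorting; independence: restriction to `Y ⊔ Z` with `Y` of maximal size
  acts like a derivation times `K(Y,Z)`, which is a non-zero-divisor by the Weyl lemma).
  Multiplication by `p₁` is injective on `V`, so the dimensions `dU c m` increase with `m`.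
* `b = 0` (C13) computes the Hilbert series of `H` itself.
* FIN (Adm, Z2): admissibility (`γ⁻¹ σ_ℓ γ` has Laurent polynomial coefficients) passes to `γ_0`;
  with monotonicity it gives finitely many chains, each chain being one generator.

## P, TP. Positivity (Flow, P1, P2, TPa, TP)
`thmP`: if the attractor data of `g` is a finite list of generators then `g_0^θ` is a finite product
of generators on every finite lower set on which `ker θ` is a ray: induct on the set, flow
`θ + s θ_d` from `s = ∞` (attractor data) back to `s = 0`; joints are planar by genericity, the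
incoming side is an ordered product (`ordered_factor`), and R gives the outgoing side.
`f_θ = Ad(g_-^θ)⁻¹ f`, `α_m(f) = [x^m] f_(θ_m)`.  `thPos_of_alpha`: `α(f) ≥ 0 ⇒ f_θ ≥ 0` for all `θ`
(flow `θ + s θ_m`, each crossing acts positively).  Products of theta-positive elements are
theta-positive; `ϑ_m` (`α = δ_m`) is positive.

## M, K. Mutation (Mut1, Mut2, KK1, KK2a, KK2)
`g_s = Ψ(y) h`, `g_(μ s) = h Ψ(-y)`.  Mutating the seed (starts `e_c`, links `e_(a+1) - e_a`, extras)
at `e_0, e_1, …` gives `g = Ψ(e_0) ⋯ Ψ(e_(n-1)) g_(links, extras)`, and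
`Ad(Ψ(e_0) ⋯ Ψ(e_(n-1))) x^z = Σ_{I independent} x^(z + e_I)`.

## V, F. The graph (GDefs, GCone, V0, V1, V2, F1a, F1, F2a, F2, F3)
`ω(e_a, e_b) = ±1` on edges.  `g = gG` (links), `g~ = Q(δ) g`, `g^ = Q(0) Q(δ) g`.  The framing
monomial `x^z` shows that `e_k = Σ_{|I| = k} x^I` is theta-positive for `g~` and `g`.  First order in
`δ`: `α~_(δ + r)(e_μ) ≤ 0` and `≥ 0`, which with `[e_1, e_μ] = 0` forces `α_m(e_μ) = 0` unless
`m ∈ Z = {m ≥ 0 | ω(e_j, m) ≤ 0 ∀ j}`; there `supp m` is independent and `α_m = [x^m]`.  Hence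
`e_μ = Σ_{m ∈ Z} [x^m] e_μ · ϑ_m`, `X_G = Σ_m c_m ∏_a e_(m_a)` with `c_m = t^E [x^(1,…,1)] ϑ_m ≥ 0`, and
`Σ_m ϑ_m = H_n` gives `Σ_m c_m = Σ_{σ ∈ descentSet} q^(ginv σ)`.
-/
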